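import Vale.Agent.P034.Main

namespace Vale.Agent.Results.P034.TalagrandFractional

open Vale.Agent.P034

/-- There is a universal constant `K` such that, for every nonempty proper increasing family,
the fractional expectation threshold is at most `K` times the integral one. -/
theorem result :
    ∃ K : ℝ, 0 < K ∧ ∀ (X : Type) [Fintype X] [Nonempty X] (F : Finset (Finset X)),
      F.Nonempty → ∅ ∉ F → (∀ A ∈ F, ∀ B : Finset X, A ⊆ B → B ∈ F) →
      qFrac F ≤ K * qInt F :=
  ⟨2 ^ 60, by norm_num, fun _ _ _ F _ h0 _ => qFrac_le F h0⟩

end Vale.Agent.Results.P034.TalagrandFractional
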